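import Vale.Agent.P052.Graph

/-! The projection matrix of trace 63. -/

namespace Vale.Agent.P052

open Matrix

/-- Indicator of a bit mask as a real vector. -/
noncomputable def chi (x : Nat) (j : Fin 416) : ℝ := if x.testBit j = true then 1 else 0

/-- First eigenvector. -/
noncomputable def w1 (j : Fin 416) : ℝ := chi w1p j - chi w1m j

/-- Second eigenvector. -/
noncomputable def w2 (j : Fin 416) : ℝ := chi w2p j - chi w2m j

/-- Orthogonal combination of the two eigenvectors. -/
noncomputable def f2 (j : Fin 416) : ℝ := w1 j - 2 * w2 j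

theorem chi_mul (x y : Nat) (j : Fin 416) : chi x j * chi y j = chi (x &&& y) j := by
  simp only [chi, Nat.testBit_and, Bool.and_eq_true]
  by_cases h1 : x.testBit j = true <;> by_cases h2 : y.testBit j = true <;> simp [h1, h2]

theorem sum_chi (x : Nat) : ∑ j, chi x j = bitCount 416 x := sum_bits x

theorem sum_chi_of_pop {x c : Nat} (h : popIs 416 x c = true) (hx : x < 2 ^ 416) :
    ∑ j, chi x j = c := by
  rw [sum_chi, popIs_sound 416 416 x c h hx]

theorem a_eq_chi (i j : Fin 416) : a i j = chi (row i) j := rfl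

theorem sum_a_chi {x c : Nat} (i : Fin 416) (h : popIs 416 (Nat.land (row i) x) c = true) :
    ∑ j, a i j * chi x j = c := by
  have e : Nat.land (row i) x = row i &&& x := rfl
  rw [e] at h
  simp only [a_eq_chi, chi_mul]
  exact sum_chi_of_pop h (land_lt (row_lt i))

theorem eig_general {p m : Nat} (hc : allBelow 416 (eigAt p m) = true) (i : Fin 416) :
    ∑ j, a i j * (chi p j - chi m j) = 20 * (chi p i - chi m i) := by
  have h := allBelow_spec _ _ hc i i.2
  simp only [eigAt, Bool.and_eq_true, Nat.beq_eq] at h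
  obtain ⟨h1, h2, h3⟩ := h
  simp only [mul_sub, Finset.sum_sub_distrib]
  rw [sum_a_chi i h1, sum_a_chi i h2]
  have h3' : ((Nat.add (popV 416 (Nat.land (row i) p)) (bif bitB m i then 20 else 0) : Nat) : ℝ) =
      ((Nat.add (popV 416 (Nat.land (row i) m)) (bif bitB p i then 20 else 0) : Nat) : ℝ) := by
    rw [h3]
  simp only [Nat.add_eq, Nat.cast_add] at h3'
  have ep : ((bif bitB p i then 20 else 0 : Nat) : ℝ) = 20 * chi p i := by
    simp only [bitB_eq, chi]
    cases p.testBit i <;> simp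
  have em : ((bif bitB m i then 20 else 0 : Nat) : ℝ) = 20 * chi m i := by
    simp only [bitB_eq, chi]
    cases m.testBit i <;> simp
  rw [ep, em] at h3'
  linarith

theorem eig_w1 (i : Fin 416) : ∑ j, a i j * w1 j = 20 * w1 i :=
  eig_general eig1_check i

theorem eig_w2 (i : Fin 416) : ∑ j, a i j * w2 j = 20 * w2 i :=
  eig_general eig2_check i

theorem eig_f2 (i : Fin 416) : ∑ j, a i j * f2 j = 20 * f2 i := by
  have : ∀ j, a i j * f2 j = a i j * w1 j - 2 * (a i j * w2 j) := by
    intro j; unfold f2; ring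
  simp only [this, Finset.sum_sub_distrib, ← Finset.mul_sum, eig_w1, eig_w2]
  unfold f2; ring

theorem sum_w1 : ∑ j, w1 j = 0 := by
  simp only [w1, Finset.sum_sub_distrib]
  rw [sum_chi_of_pop count_w1p mask_lt_w1p, sum_chi_of_pop count_w1m mask_lt_w1m]
  norm_num

theorem sum_w2 : ∑ j, w2 j = 0 := by
  simp only [w2, Finset.sum_sub_distrib]
  rw [sum_chi_of_pop count_w2p mask_lt_w2p, sum_chi_of_pop count_w2m mask_lt_w2m]
  norm_num

theorem sum_f2 : ∑ j, f2 j = 0 := by
  simp only [f2, Finset.sum_sub_distrib, ← Finset.mul_sum, sum_w1, sum_w2]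
  norm_num

theorem chi_sq (x : Nat) (j : Fin 416) : chi x j * chi x j = chi x j := by
  unfold chi; split_ifs <;> norm_num

theorem land_pop {x y c : Nat} (h : popIs 416 (Nat.land x y) c = true) (hx : x < 2 ^ 416) :
    ∑ j, chi x j * chi y j = c := by
  have e : Nat.land x y = x &&& y := rfl
  rw [e] at h
  simp only [chi_mul]
  exact sum_chi_of_pop h (land_lt hx)

theorem sum_w1_sq : ∑ j, w1 j * w1 j = 64 := by
  have : ∀ j, w1 j * w1 j = chi w1p j + chi w1m j - 2 * (chi w1p j * chi w1m j) := by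
    intro j; unfold w1
    have h1 := chi_sq w1p j
    have h2 := chi_sq w1m j
    nlinarith
  simp only [this, Finset.sum_sub_distrib, Finset.sum_add_distrib, ← Finset.mul_sum]
  rw [sum_chi_of_pop count_w1p mask_lt_w1p, sum_chi_of_pop count_w1m mask_lt_w1m,
    land_pop count_w1pm mask_lt_w1p]
  norm_num

theorem sum_w2_sq : ∑ j, w2 j * w2 j = 64 := by
  have : ∀ j, w2 j * w2 j = chi w2p j + chi w2m j - 2 * (chi w2p j * chi w2m j) := by
    intro j; unfold w2
    have h1 := chi_sq w2p j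
    have h2 := chi_sq w2m j
    nlinarith
  simp only [this, Finset.sum_sub_distrib, Finset.sum_add_distrib, ← Finset.mul_sum]
  rw [sum_chi_of_pop count_w2p mask_lt_w2p, sum_chi_of_pop count_w2m mask_lt_w2m,
    land_pop count_w2pm mask_lt_w2p]
  norm_num

theorem sum_w1_w2 : ∑ j, w1 j * w2 j = 32 := by
  have : ∀ j, w1 j * w2 j = chi w1p j * chi w2p j + chi w1m j * chi w2m j
      - (chi w1p j * chi w2m j + chi w1m j * chi w2p j) := by
    intro j; unfold w1 w2; ring
  simp only [this, Finset.sum_sub_distrib, Finset.sum_add_distrib]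
  rw [land_pop count_pp mask_lt_w1p, land_pop count_mm mask_lt_w1m,
    land_pop count_pm mask_lt_w1p, land_pop count_mp mask_lt_w1m]
  norm_num

theorem sum_f2_sq : ∑ j, f2 j * f2 j = 192 := by
  have : ∀ j, f2 j * f2 j = w1 j * w1 j - 4 * (w1 j * w2 j) + 4 * (w2 j * w2 j) := by
    intro j; unfold f2; ring
  simp only [this, Finset.sum_sub_distrib, Finset.sum_add_distrib, ← Finset.mul_sum]
  rw [sum_w1_sq, sum_w1_w2, sum_w2_sq]
  norm_num

theorem sum_w1_f2 : ∑ j, w1 j * f2 j = 0 := by
  have : ∀ j, w1 j * f2 j = w1 j * w1 j - 2 * (w1 j * w2 j) := by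
    intro j; unfold f2; ring
  simp only [this, Finset.sum_sub_distrib, ← Finset.mul_sum]
  rw [sum_w1_sq, sum_w1_w2]
  norm_num

/-- Generic algebra: the combination is idempotent. -/
theorem alg_idem {R : Type*} [Ring R] [Algebra ℝ R] (A J F G : R)
    (hAA : A * A = (80 : ℝ) • (1 : R) + (16 : ℝ) • A + (20 : ℝ) • J)
    (hAJ : A * J = (100 : ℝ) • J) (hJA : J * A = (100 : ℝ) • J) (hJJ : J * J = (416 : ℝ) • J)
    (hAF : A * F = (20 : ℝ) • F) (hFA : F * A = (20 : ℝ) • F)
    (hAG : A * G = (20 : ℝ) • G) (hGA : G * A = (20 : ℝ) • G)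
    (hJF : J * F = 0) (hFJ : F * J = 0) (hJG : J * G = 0) (hGJ : G * J = 0)
    (hFF : F * F = (64 : ℝ) • F) (hGG : G * G = (192 : ℝ) • G)
    (hFG : F * G = 0) (hGF : G * F = 0) :
    ((1 / 24 : ℝ) • (A + (4 : ℝ) • (1 : R)) - (1 / 96 : ℝ) • J - (1 / 64 : ℝ) • F -
        (1 / 192 : ℝ) • G) *
      ((1 / 24 : ℝ) • (A + (4 : ℝ) • (1 : R)) - (1 / 96 : ℝ) • J - (1 / 64 : ℝ) • F -
        (1 / 192 : ℝ) • G) =
      (1 / 24 : ℝ) • (A + (4 : ℝ) • (1 : R)) - (1 / 96 : ℝ) • J - (1 / 64 : ℝ) • F -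
        (1 / 192 : ℝ) • G := by
  simp only [mul_sub, sub_mul, mul_add, add_mul, smul_mul_assoc, mul_smul_comm, mul_one, one_mul,
    hAA, hAJ, hJA, hJJ, hAF, hFA, hAG, hGA, hJF, hFJ, hJG, hGJ, hFF, hGG, hFG, hGF, smul_zero,
    smul_add, smul_smul]
  module

/-- The adjacency matrix. -/
noncomputable def matA : Matrix (Fin 416) (Fin 416) ℝ := Matrix.of a

/-- The all-ones matrix. -/
noncomputable def matJ : Matrix (Fin 416) (Fin 416) ℝ := Matrix.of fun _ _ => 1

/-- The rank one matrix of a vector. -/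
noncomputable def matV (f : Fin 416 → ℝ) : Matrix (Fin 416) (Fin 416) ℝ :=
  Matrix.of fun i j => f i * f j

/-- The projection matrix. -/
noncomputable def matM : Matrix (Fin 416) (Fin 416) ℝ :=
  (1 / 24 : ℝ) • (matA + (4 : ℝ) • (1 : Matrix (Fin 416) (Fin 416) ℝ)) - (1 / 96 : ℝ) • matJ -
    (1 / 64 : ℝ) • matV w1 - (1 / 192 : ℝ) • matV f2

theorem sum_a_row (i : Fin 416) : ∑ j, a i j = 100 := by
  have h := srg_all i i
  simp only [a_sq] at h
  rw [h]
  simp [srgVal]

theorem matA_mul_matA : matA * matA =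
    (80 : ℝ) • (1 : Matrix (Fin 416) (Fin 416) ℝ) + (16 : ℝ) • matA + (20 : ℝ) • matJ := by
  ext i k
  simp only [Matrix.mul_apply, matA, Matrix.of_apply, Matrix.add_apply, Matrix.smul_apply,
    matJ, smul_eq_mul, Matrix.one_apply]
  have h : ∑ j, a i j * a j k = ∑ j, a i j * a k j :=
    Finset.sum_congr rfl (fun j _ => by rw [a_symm j k])
  rw [h, srg_all i k]
  unfold srgVal
  by_cases hik : i = k
  · subst hik; simp [a_self]; norm_num
  · simp only [hik, if_false]
    unfold a
    cases adj i k <;> norm_num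

theorem matA_mul_matJ : matA * matJ = (100 : ℝ) • matJ := by
  ext i k
  simp [Matrix.mul_apply, matA, matJ, sum_a_row]

theorem matJ_mul_matA : matJ * matA = (100 : ℝ) • matJ := by
  ext i k
  simp only [Matrix.mul_apply, matA, matJ, Matrix.of_apply, one_mul, Matrix.smul_apply, smul_eq_mul,
    mul_one]
  have h : ∑ j, a j k = ∑ j, a k j := Finset.sum_congr rfl (fun j _ => a_symm j k)
  rw [h, sum_a_row]

theorem matJ_mul_matJ : matJ * matJ = (416 : ℝ) • matJ := by
  ext i k
  simp [Matrix.mul_apply, matJ]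

theorem matA_mul_matV {f : Fin 416 → ℝ} (h : ∀ i, ∑ j, a i j * f j = 20 * f i) :
    matA * matV f = (20 : ℝ) • matV f := by
  ext i k
  simp only [Matrix.mul_apply, matA, matV, Matrix.of_apply, Matrix.smul_apply, smul_eq_mul]
  have : ∑ j, a i j * (f j * f k) = (∑ j, a i j * f j) * f k := by
    rw [Finset.sum_mul]; exact Finset.sum_congr rfl (fun j _ => by ring)
  rw [this, h i]; ring

theorem matV_mul_matA {f : Fin 416 → ℝ} (h : ∀ i, ∑ j, a i j * f j = 20 * f i) :
    matV f * matA = (20 : ℝ) • matV f := by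
  ext i k
  simp only [Matrix.mul_apply, matA, matV, Matrix.of_apply, Matrix.smul_apply, smul_eq_mul]
  have : ∑ j, f i * f j * a j k = f i * (∑ j, a k j * f j) := by
    rw [Finset.mul_sum]; exact Finset.sum_congr rfl (fun j _ => by rw [a_symm j k]; ring)
  rw [this, h k]; ring

theorem matJ_mul_matV {f : Fin 416 → ℝ} (h : ∑ j, f j = 0) : matJ * matV f = 0 := by
  ext i k
  simp only [Matrix.mul_apply, matJ, matV, Matrix.of_apply, one_mul, Matrix.zero_apply]
  rw [← Finset.sum_mul, h, zero_mul]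

theorem matV_mul_matJ {f : Fin 416 → ℝ} (h : ∑ j, f j = 0) : matV f * matJ = 0 := by
  ext i k
  simp only [Matrix.mul_apply, matJ, matV, Matrix.of_apply, mul_one, Matrix.zero_apply]
  rw [← Finset.mul_sum, h, mul_zero]

theorem matV_mul_matV (f g : Fin 416 → ℝ) :
    matV f * matV g = (∑ j, f j * g j) • Matrix.of (fun i k => f i * g k) := by
  ext i k
  simp only [Matrix.mul_apply, matV, Matrix.of_apply, Matrix.smul_apply, smul_eq_mul]
  rw [Finset.sum_mul]
  exact Finset.sum_congr rfl (fun j _ => by ring)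

theorem matM_idem : matM * matM = matM := by
  have hFF : matV w1 * matV w1 = (64 : ℝ) • matV w1 := by
    rw [matV_mul_matV, sum_w1_sq]; rfl
  have hGG : matV f2 * matV f2 = (192 : ℝ) • matV f2 := by
    rw [matV_mul_matV, sum_f2_sq]; rfl
  have hFG : matV w1 * matV f2 = 0 := by
    rw [matV_mul_matV, sum_w1_f2, zero_smul]
  have hGF : matV f2 * matV w1 = 0 := by
    rw [matV_mul_matV]
    have : ∑ j, f2 j * w1 j = 0 := by
      rw [← sum_w1_f2]; exact Finset.sum_congr rfl (fun j _ => mul_comm _ _)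
    rw [this, zero_smul]
  exact alg_idem matA matJ (matV w1) (matV f2) matA_mul_matA matA_mul_matJ matJ_mul_matA
    matJ_mul_matJ (matA_mul_matV eig_w1) (matV_mul_matA eig_w1) (matA_mul_matV eig_f2)
    (matV_mul_matA eig_f2) (matJ_mul_matV sum_w1) (matV_mul_matJ sum_w1) (matJ_mul_matV sum_f2)
    (matV_mul_matJ sum_f2) hFF hGG hFG hGF

/-- Entry formula. -/
theorem matM_apply (i k : Fin 416) :
    matM i k = (a i k + (if i = k then 4 else 0)) / 24 - 1 / 96 - w1 i * w1 k / 64
      - f2 i * f2 k / 192 := by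
  simp only [matM, Matrix.sub_apply, Matrix.smul_apply, Matrix.add_apply, matA, matJ, matV,
    Matrix.of_apply, Matrix.one_apply, smul_eq_mul]
  split_ifs <;> ring

theorem matM_symm (i k : Fin 416) : matM i k = matM k i := by
  rw [matM_apply, matM_apply, a_symm i k]
  by_cases h : i = k
  · subst h; ring
  · rw [if_neg h, if_neg (Ne.symm h)]; ring

theorem matM_trace : Matrix.trace matM = 63 := by
  have hs : ∀ i, matM i i = (a i i + 4) / 24 - 1 / 96 - w1 i * w1 i / 64 - f2 i * f2 i / 192 := by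
    intro i; rw [matM_apply, if_pos rfl]
  simp only [Matrix.trace, Matrix.diag_apply, hs, a_self, Finset.sum_sub_distrib,
    ← Finset.sum_div, sum_w1_sq, sum_f2_sq]
  simp
  norm_num

end Vale.Agent.P052
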