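import Mathlib

/-! Boolean loops on natural-number bit masks, written with the raw `Nat` operations that the
kernel evaluates directly, and the proofs that they mean what they should. -/

namespace Vale.Agent.P052

/-- The bit test, written with raw operations. -/
def bitB (m n : Nat) : Bool := Nat.beq (Nat.land 1 (Nat.shiftRight m n)) 1

theorem bitB_eq (m n : Nat) : bitB m n = m.testBit n := by
  have h : Nat.land 1 (Nat.shiftRight m n) = (m >>> n) % 2 := Nat.one_and_eq_mod_two _
  unfold bitB
  rw [h]
  unfold Nat.testBit
  rw [show (1 &&& m >>> n) = (m >>> n) % 2 from Nat.one_and_eq_mod_two _]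
  rcases Nat.mod_two_eq_zero_or_one (m >>> n) with h0 | h0 <;> rw [h0] <;> rfl

/-- Bounded universal quantifier as a Boolean loop. -/
def allBelow : Nat → (Nat → Bool) → Bool
  | 0, _ => true
  | n + 1, p => p n && allBelow n p

theorem allBelow_spec (n : Nat) (p : Nat → Bool) (h : allBelow n p = true) :
    ∀ i, i < n → p i = true := by
  induction n with
  | zero => intro i hi; omega
  | succ n ih =>
    intro i hi
    simp only [allBelow, Bool.and_eq_true] at h
    rcases Nat.lt_succ_iff_lt_or_eq.mp hi with h1 | h1
    · exact ih h.2 i h1
    · rw [h1]; exact h.1

/-- Search for the position of the top set bit; correctness is never assumed, the callers test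
the answer. -/
def topAux : Nat → Nat → Nat → Nat
  | 0, _, pos => pos
  | s + 1, x, pos =>
    bif Nat.beq (Nat.shiftRight x (Nat.pow 2 s)) 0 then topAux s x pos
    else topAux s (Nat.shiftRight x (Nat.pow 2 s)) (Nat.add pos (Nat.pow 2 s))

/-- Candidate position of the top set bit of `x`. -/
def topBit (x : Nat) : Nat := topAux 9 x 0

/-- `popIs n x c` certifies that `x` has exactly `c` set bits. -/
def popIs : Nat → Nat → Nat → Bool
  | 0, x, c => Nat.beq x 0 && Nat.beq c 0
  | n + 1, x, c =>
    bif Nat.beq x 0 then Nat.beq c 0 else
    match c with
    | 0 => false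
    | c' + 1 =>
      Nat.beq (Nat.shiftRight x (topBit x)) 1 &&
        popIs n (Nat.mod x (Nat.pow 2 (topBit x))) c'

/-- `chk row f d x` certifies that the bit set of `x` contains no clique of size `d + 1` for the
relation given by the rows `row`. -/
def chk (row : Nat → Nat) : Nat → Nat → Nat → Bool
  | 0, _, x => Nat.beq x 0
  | f + 1, d, x =>
    bif Nat.beq x 0 then true else
    match d with
    | 0 => false
    | d' + 1 =>
      Nat.beq (Nat.shiftRight x (topBit x)) 1 &&
        (chk row f d' (Nat.land (Nat.mod x (Nat.pow 2 (topBit x))) (row (topBit x))) &&
          chk row f (d' + 1) (Nat.mod x (Nat.pow 2 (topBit x))))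

theorem beq_zero_of_ne {x : Nat} (hx : x ≠ 0) : Nat.beq x 0 = false := by
  cases x with
  | zero => exact absurd rfl hx
  | succ n => rfl

theorem beq_zero_self : Nat.beq 0 0 = true := rfl

/-- Facts about a position `w` with `x >>> w = 1`. -/
theorem top_facts {x w : Nat} (h : x >>> w = 1) :
    x.testBit w = true ∧ (∀ j, w < j → x.testBit j = false) ∧
      (∀ j, (x % 2 ^ w).testBit j = (decide (j < w) && x.testBit j)) := by
  refine ⟨?_, ?_, fun j => Nat.testBit_mod_two_pow x w j⟩
  · have := @Nat.testBit_shiftRight w 0 x
    rw [h] at this
    simpa using this.symm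
  · intro j hj
    have := @Nat.testBit_shiftRight w (j - w) x
    rw [h, show w + (j - w) = j by omega] at this
    rw [← this]
    have hpos : 0 < j - w := by omega
    obtain ⟨k, hk⟩ : ∃ k, j - w = k + 1 := ⟨j - w - 1, by omega⟩
    rw [hk]
    simp [Nat.testBit_succ]

/-- Number of set bits below `B`. -/
def bitCount (B x : Nat) : Nat := ((Finset.range B).filter (fun j => x.testBit j = true)).card

theorem bitCount_zero (B : Nat) : bitCount B 0 = 0 := by
  simp [bitCount]

theorem popIs_sound (B : Nat) : ∀ (n x c : Nat), popIs n x c = true → x < 2 ^ B →
    bitCount B x = c := by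
  intro n
  induction n with
  | zero =>
    intro x c h _
    simp only [popIs, Bool.and_eq_true, Nat.beq_eq] at h
    rw [h.1, h.2, bitCount_zero]
  | succ n ih =>
    intro x c h hx
    by_cases hx0 : x = 0
    · subst hx0
      simp only [popIs, beq_zero_self, cond_true, Nat.beq_eq] at h
      rw [h, bitCount_zero]
    · have hb : Nat.beq x 0 = false := beq_zero_of_ne hx0
      simp only [popIs, hb, cond_false] at h
      cases c with
      | zero => simp at h
      | succ c =>
        simp only [Bool.and_eq_true, Nat.beq_eq] at h
        obtain ⟨h1, h2⟩ := h
        set w := topBit x with hw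
        have h1' : x >>> w = 1 := h1
        obtain ⟨t1, t2, t3⟩ := top_facts h1'
        have hwB : w < B := by
          by_contra hc
          have hle : B ≤ w := by omega
          have : x >>> w = 0 := by
            rw [Nat.shiftRight_eq_div_pow]
            apply Nat.div_eq_of_lt
            exact lt_of_lt_of_le hx (Nat.pow_le_pow_right (by norm_num) hle)
          omega
        have hlt : x % 2 ^ w < 2 ^ B :=
          lt_of_lt_of_le (Nat.mod_lt _ (by positivity))
            (Nat.pow_le_pow_right (by norm_num) hwB.le)
        have ih' := ih (x % 2 ^ w) c h2 hlt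
        have hset : (Finset.range B).filter (fun j => x.testBit j = true) =
            insert w ((Finset.range B).filter (fun j => (x % 2 ^ w).testBit j = true)) := by
          ext j
          simp only [Finset.mem_filter, Finset.mem_range, Finset.mem_insert, t3,
            Bool.and_eq_true, decide_eq_true_eq]
          constructor
          · rintro ⟨hj, hjb⟩
            rcases lt_trichotomy j w with hl | he | hg
            · exact Or.inr ⟨hj, hl, hjb⟩
            · exact Or.inl he
            · rw [t2 j hg] at hjb; simp at hjb
          · rintro (he | ⟨hj, hl, hjb⟩)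
            · subst he; exact ⟨hwB, t1⟩
            · exact ⟨hj, hjb⟩
        have hnot : w ∉ (Finset.range B).filter (fun j => (x % 2 ^ w).testBit j = true) := by
          simp [t3]
        unfold bitCount at ih' ⊢
        rw [hset, Finset.card_insert_of_notMem hnot, ih']

theorem chk_sound (row : Nat → Nat) : ∀ (f d x : Nat), chk row f d x = true →
    ∀ Q : Finset Nat, (∀ q ∈ Q, x.testBit q = true) →
      (∀ a ∈ Q, ∀ b ∈ Q, a ≠ b → (row a).testBit b = true) → Q.card ≤ d := by
  intro f
  induction f with
  | zero =>
    intro d x h Q hQ _
    simp only [chk, Nat.beq_eq] at h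
    subst h
    have : Q = ∅ := by
      apply Finset.eq_empty_of_forall_notMem
      intro q hq
      have := hQ q hq
      simp at this
    simp [this]
  | succ f ih =>
    intro d x h Q hQ hR
    by_cases hx0 : x = 0
    · subst hx0
      have : Q = ∅ := by
        apply Finset.eq_empty_of_forall_notMem
        intro q hq
        have := hQ q hq
        simp at this
      simp [this]
    · have hb : Nat.beq x 0 = false := beq_zero_of_ne hx0
      simp only [chk, hb, cond_false] at h
      cases d with
      | zero => simp at h
      | succ d =>
        simp only [Bool.and_eq_true, Nat.beq_eq] at h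
        obtain ⟨h1, h2, h3⟩ := h
        set w := topBit x with hw
        have h1' : x >>> w = 1 := h1
        obtain ⟨t1, t2, t3⟩ := top_facts h1'
        have hlow : ∀ q ∈ Q, q ≠ w → (x % 2 ^ w).testBit q = true := by
          intro q hq hne
          have hqb := hQ q hq
          rw [t3]
          have hlt : q < w := by
            rcases lt_trichotomy q w with hl | he | hg
            · exact hl
            · exact absurd he hne
            · rw [t2 q hg] at hqb; simp at hqb
          simp [hlt, hqb]
        by_cases hwQ : w ∈ Q
        · have hcard := ih d (Nat.land (Nat.mod x (Nat.pow 2 w)) (row w)) h2 (Q.erase w)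
            (by
              intro q hq
              have hq' := Finset.mem_erase.mp hq
              have e : Nat.land (Nat.mod x (Nat.pow 2 w)) (row w) = (x % 2 ^ w) &&& row w := rfl
              rw [e, Nat.testBit_and, hlow q hq'.2 hq'.1,
                hR w hwQ q hq'.2 (Ne.symm hq'.1)]
              rfl)
            (by
              intro a ha b hb hab
              exact hR a (Finset.mem_of_mem_erase ha) b (Finset.mem_of_mem_erase hb) hab)
          rw [Finset.card_erase_of_mem hwQ] at hcard
          omega
        · have := ih (d + 1) (Nat.mod x (Nat.pow 2 w)) h3 Q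
            (by
              intro q hq
              exact hlow q hq (fun e => hwQ (e ▸ hq)))
            hR
          exact this

end Vale.Agent.P052
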