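import Vale.Agent.P052.Data
import Vale.Agent.P052.Bits

/-! Kernel-evaluated checks on the packed graph data. -/

namespace Vale.Agent.P052

/-- Row `i` of the adjacency matrix, as a bit mask. -/
def row (i : Nat) : Nat := Nat.mod (Nat.shiftRight adjPacked (Nat.mul 416 i)) (Nat.pow 2 416)

/-- The two vertex permutations. -/
def gen (c i : Nat) : Nat :=
  Nat.mod (Nat.shiftRight (bif Nat.beq c 0 then g1Packed else g2Packed) (Nat.mul 9 i)) 512

/-- Table entry for the spanning tree. -/
def parentCode (i : Nat) : Nat := Nat.mod (Nat.shiftRight parentPacked (Nat.mul 10 i)) 1024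

/-- Boolean equality with no instance unfolding. -/
def boolEq (a b : Bool) : Bool := cond a b (!b)

theorem boolEq_spec {a b : Bool} (h : boolEq a b = true) : a = b := by
  cases a <;> cases b <;> simp_all [boolEq]

theorem sym_check :
    allBelow 416 (fun i => allBelow 416 (fun j => boolEq (bitB (row i) j) (bitB (row j) i))) = true := by
  decide +kernel

theorem irrefl_check : allBelow 416 (fun i => !(bitB (row i) i)) = true := by
  decide +kernel

theorem gen_range_check :
    allBelow 2 (fun c => allBelow 416 (fun i => Nat.blt (gen c i) 416)) = true := by
  decide +kernel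

theorem gen_inj_check :
    allBelow 2 (fun c => allBelow 416 (fun i => allBelow i (fun j =>
      !(Nat.beq (gen c i) (gen c j))))) = true := by
  decide +kernel

theorem aut_check_zero :
    allBelow 416 (fun i => allBelow 416 (fun j =>
      boolEq (bitB (row (gen 0 i)) (gen 0 j)) (bitB (row i) j))) = true := by
  decide +kernel

theorem aut_check_one :
    allBelow 416 (fun i => allBelow 416 (fun j =>
      boolEq (bitB (row (gen 1 i)) (gen 1 j)) (bitB (row i) j))) = true := by
  decide +kernel

theorem parent_check :
    allBelow 416 (fun v => bif Nat.beq v 0 then true else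
      (Nat.blt (Nat.div (parentCode v) 2) v &&
        Nat.beq (gen (Nat.mod (parentCode v) 2) (Nat.div (parentCode v) 2)) v)) = true := by
  decide +kernel

theorem srg0_check :
    allBelow 416 (fun k => popIs 416 (Nat.land (row 0) (row k))
      (bif Nat.beq k 0 then 100 else bif bitB (row 0) k then 36 else 20)) = true := by
  decide +kernel

theorem clique0_check : chk row 417 4 (row 0) = true := by
  decide +kernel

/-- A plain count of set bits, used only to supply the numbers that `popIs` then certifies. -/
def popV : Nat → Nat → Nat
  | 0, _ => 0
  | n + 1, x => bif Nat.beq x 0 then 0 else Nat.add (popV n (Nat.land x (Nat.sub x 1))) 1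

/-- The eigenvector equation at `v` for the vector with positive mask `p` and negative mask `m`:
the certified numbers of neighbours in the two masks differ by twenty times the entry at `v`. -/
def eigAt (p m v : Nat) : Bool :=
  popIs 416 (Nat.land (row v) p) (popV 416 (Nat.land (row v) p)) &&
  (popIs 416 (Nat.land (row v) m) (popV 416 (Nat.land (row v) m)) &&
  Nat.beq (Nat.add (popV 416 (Nat.land (row v) p)) (bif bitB m v then 20 else 0))
    (Nat.add (popV 416 (Nat.land (row v) m)) (bif bitB p v then 20 else 0)))

theorem eig1_check : allBelow 416 (eigAt w1p w1m) = true := by decide +kernel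

theorem eig2_check : allBelow 416 (eigAt w2p w2m) = true := by decide +kernel

theorem count_w1p : popIs 416 w1p 32 = true := by decide +kernel
theorem count_w1m : popIs 416 w1m 32 = true := by decide +kernel
theorem count_w2p : popIs 416 w2p 32 = true := by decide +kernel
theorem count_w2m : popIs 416 w2m 32 = true := by decide +kernel
theorem count_w1pm : popIs 416 (Nat.land w1p w1m) 0 = true := by decide +kernel
theorem count_w2pm : popIs 416 (Nat.land w2p w2m) 0 = true := by decide +kernel
theorem count_pp : popIs 416 (Nat.land w1p w2p) 16 = true := by decide +kernel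
theorem count_mm : popIs 416 (Nat.land w1m w2m) 16 = true := by decide +kernel
theorem count_pm : popIs 416 (Nat.land w1p w2m) 0 = true := by decide +kernel
theorem count_mp : popIs 416 (Nat.land w1m w2p) 0 = true := by decide +kernel
theorem count_slice : popIs 416 sliceMask 320 = true := by decide +kernel
theorem slice_w1p : Nat.land sliceMask w1p = 0 := by decide +kernel
theorem slice_w1m : Nat.land sliceMask w1m = 0 := by decide +kernel
theorem slice_w2p : Nat.land sliceMask w2p = 0 := by decide +kernel
theorem slice_w2m : Nat.land sliceMask w2m = 0 := by decide +kernel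
theorem extra_lt : extraVertex < 416 := by decide +kernel
theorem extra_w1p : bitB w1p extraVertex = true := by decide +kernel
theorem extra_w1m : bitB w1m extraVertex = false := by decide +kernel
theorem extra_w2p : bitB w2p extraVertex = false := by decide +kernel
theorem extra_w2m : bitB w2m extraVertex = false := by decide +kernel
theorem extra_slice : bitB sliceMask extraVertex = false := by decide +kernel
theorem mask_lt_w1p : w1p < 2 ^ 416 := by decide +kernel
theorem mask_lt_w1m : w1m < 2 ^ 416 := by decide +kernel
theorem mask_lt_w2p : w2p < 2 ^ 416 := by decide +kernel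
theorem mask_lt_w2m : w2m < 2 ^ 416 := by decide +kernel
theorem mask_lt_slice : sliceMask < 2 ^ 416 := by decide +kernel

end Vale.Agent.P052
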