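import Vale.Agent.P052.Algebra

/-! The point configuration in `ℝ^63` and the covering argument. -/

namespace Vale.Agent.P052

open scoped RealInnerProductSpace

/-- The ambient Euclidean space. -/
abbrev EE := EuclideanSpace ℝ (Fin 416)

/-- The projection as a linear map. -/
noncomputable def opT : EE →ₗ[ℝ] EE := Matrix.toEuclideanLin matM

theorem opT_idem : IsIdempotentElem opT := by
  unfold IsIdempotentElem
  ext1 x
  simp only [opT, Module.End.mul_apply, Matrix.toEuclideanLin_apply, Matrix.mulVec_mulVec,
    matM_idem]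

theorem opT_trace : LinearMap.trace ℝ EE opT = 63 := by
  unfold opT
  rw [Matrix.toEuclideanLin_eq_toLin_orthonormal, Matrix.trace_toLin_eq, matM_trace]

/-- The range of the projection has dimension 63. -/
theorem finrank_range : Module.finrank ℝ (LinearMap.range opT) = 63 := by
  have h := (LinearMap.IsIdempotentElem.isProj_range opT opT_idem).trace
  rw [opT_trace] at h
  exact_mod_cast h.symm

/-- The vector attached to a vertex. -/
noncomputable def q (i : Fin 416) : EE := opT (EuclideanSpace.single i (1 : ℝ))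

theorem q_apply (i j : Fin 416) : (q i) j = matM j i := by
  simp [q, opT, Matrix.toEuclideanLin_apply]

theorem inner_q (i k : Fin 416) : ⟪q i, q k⟫ = matM i k := by
  rw [PiLp.inner_apply]
  simp only [q_apply, RCLike.inner_apply, conj_trivial]
  have h := congrFun (congrFun matM_idem i) k
  rw [Matrix.mul_apply] at h
  rw [← h]
  exact Finset.sum_congr rfl (fun j _ => by rw [matM_symm j k, matM_symm j i]; ring)

theorem q_mem (i : Fin 416) : q i ∈ LinearMap.range opT := ⟨_, rfl⟩

/-- Membership in the slice. -/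
def sl (i : Fin 416) : Bool := sliceMask.testBit i

/-- The slice as a finite set. -/
def sliceSet : Finset (Fin 416) := Finset.univ.filter fun i => sl i = true

/-- The removed vertex. -/
def uu : Fin 416 := ⟨extraVertex, extra_lt⟩

theorem chi_zero_of_land {x y : Nat} (h : Nat.land x y = 0) (j : Fin 416)
    (hj : x.testBit j = true) : chi y j = 0 := by
  have e : (x &&& y).testBit j = false := by
    have : (x &&& y) = 0 := h
    rw [this]; simp
  rw [Nat.testBit_and, hj] at e
  simp only [Bool.true_and] at e
  simp [chi, e]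

theorem w1_slice (i : Fin 416) (hi : sl i = true) : w1 i = 0 := by
  simp only [w1, chi_zero_of_land slice_w1p i hi, chi_zero_of_land slice_w1m i hi, sub_zero]

theorem w2_slice (i : Fin 416) (hi : sl i = true) : w2 i = 0 := by
  simp only [w2, chi_zero_of_land slice_w2p i hi, chi_zero_of_land slice_w2m i hi, sub_zero]

theorem f2_slice (i : Fin 416) (hi : sl i = true) : f2 i = 0 := by
  simp only [f2, w1_slice i hi, w2_slice i hi]; ring

theorem w1_uu : w1 uu = 1 := by
  have h1 : extraVertex.testBit extraVertex = extraVertex.testBit extraVertex := rfl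
  have hp : w1p.testBit uu = true := by
    have := extra_w1p; rw [bitB_eq] at this; exact this
  have hm : w1m.testBit uu = false := by
    have := extra_w1m; rw [bitB_eq] at this; exact this
  simp [w1, chi, hp, hm]

theorem w2_uu : w2 uu = 0 := by
  have hp : w2p.testBit uu = false := by
    have := extra_w2p; rw [bitB_eq] at this; exact this
  have hm : w2m.testBit uu = false := by
    have := extra_w2m; rw [bitB_eq] at this; exact this
  simp [w2, chi, hp, hm]

theorem f2_uu : f2 uu = 1 := by
  simp only [f2, w1_uu, w2_uu]; ring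

theorem uu_not_slice : sl uu = false := by
  have := extra_slice; rw [bitB_eq] at this; exact this

theorem uu_ne_of_slice (i : Fin 416) (hi : sl i = true) : uu ≠ i := by
  intro h
  rw [← h, uu_not_slice] at hi
  exact absurd hi (by simp)

theorem card_slice : sliceSet.card = 320 := by
  have h := sum_chi_of_pop count_slice mask_lt_slice
  have h2 : ∑ j, chi sliceMask j = (sliceSet.card : ℝ) := by
    unfold sliceSet sl chi
    rw [Finset.sum_boole]
  rw [h2] at h
  exact_mod_cast h

theorem M_self_slice (i : Fin 416) (hi : sl i = true) : matM i i = 5 / 32 := by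
  rw [matM_apply, if_pos rfl, a_self, w1_slice i hi, f2_slice i hi]; norm_num

theorem M_slice (i k : Fin 416) (hi : sl i = true) (hne : i ≠ k) :
    matM i k = a i k / 24 - 1 / 96 := by
  rw [matM_apply, if_neg hne, w1_slice i hi, f2_slice i hi]; ring

theorem M_uu : matM uu uu = 13 / 96 := by
  rw [matM_apply, if_pos rfl, a_self, w1_uu, f2_uu]; norm_num

theorem M_uu_slice (k : Fin 416) (hk : sl k = true) :
    matM k uu = a k uu / 24 - 1 / 96 := M_slice k uu hk (uu_ne_of_slice k hk).symm

theorem a_of_adj {i k : Fin 416} (h : adj i k = true) : a i k = 1 := by simp [a, h]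

theorem a_of_not_adj {i k : Fin 416} (h : adj i k = false) : a i k = 0 := by simp [a, h]

/-- Squared distance between two vertices of the slice. -/
theorem dist_sq_slice (i k : Fin 416) (hi : sl i = true) (hk : sl k = true) (hne : i ≠ k) :
    ‖q i - q k‖ ^ 2 = if adj i k = true then 1 / 4 else 1 / 3 := by
  rw [norm_sub_sq_real, ← real_inner_self_eq_norm_sq, ← real_inner_self_eq_norm_sq, inner_q,
    inner_q, inner_q, M_self_slice i hi, M_self_slice k hk, M_slice i k hi hne]
  by_cases h : adj i k = true
  · rw [if_pos h, a_of_adj h]; norm_num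
  · rw [if_neg h, a_of_not_adj (by simpa using h)]; norm_num

/-- The positive root of the quadratic that fixes the extra point. -/
noncomputable def tt : ℝ := (-1 + Real.sqrt 222) / 13

theorem tt_pos : 0 < tt := by
  unfold tt
  have : (1 : ℝ) < Real.sqrt 222 := by
    rw [Real.lt_sqrt (by norm_num)]; norm_num
  linarith

theorem tt_eq : 13 * tt ^ 2 + 2 * tt - 17 = 0 := by
  unfold tt
  have h : Real.sqrt 222 ^ 2 = 222 := Real.sq_sqrt (by norm_num)
  field_simp
  nlinarith

/-- Squared distance between the extra vector and a vertex of the slice. -/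
theorem dist_sq_extra (k : Fin 416) (hk : sl k = true) :
    ‖tt • q uu - q k‖ ^ 2 = if adj k uu = true then 1 / 3 - tt / 12 else 1 / 3 := by
  rw [norm_sub_sq_real, norm_smul, mul_pow, ← real_inner_self_eq_norm_sq (q k),
    ← real_inner_self_eq_norm_sq (q uu), inner_smul_left, inner_q, inner_q, inner_q,
    M_uu, M_self_slice k hk, matM_symm uu k, M_uu_slice k hk]
  have h2 : ‖tt‖ ^ 2 = tt ^ 2 := by rw [Real.norm_eq_abs, sq_abs]
  rw [h2]
  simp only [conj_trivial]
  have ht := tt_eq
  by_cases h : adj k uu = true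
  · rw [if_pos h, a_of_adj h]; linarith
  · rw [if_neg h, a_of_not_adj (by simpa using h)]; linarith

/-- Orthonormal coordinates on the range of the projection. -/
noncomputable def coord : OrthonormalBasis (Fin 63) ℝ (LinearMap.range opT) :=
  (stdOrthonormalBasis ℝ (LinearMap.range opT)).reindex (finCongr finrank_range)

/-- The coordinate isometry. -/
noncomputable def phi : (LinearMap.range opT) ≃ₗᵢ[ℝ] EuclideanSpace ℝ (Fin 63) := coord.repr

/-- The point of a vertex. -/
noncomputable def yy (i : Fin 416) : EuclideanSpace ℝ (Fin 63) := phi ⟨q i, q_mem i⟩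

/-- The extra point. -/
noncomputable def xx : EuclideanSpace ℝ (Fin 63) :=
  phi (tt • (⟨q uu, q_mem uu⟩ : LinearMap.range opT))

theorem dist_yy (i k : Fin 416) : dist (yy i) (yy k) = ‖q i - q k‖ := by
  unfold yy
  rw [phi.dist_map, dist_eq_norm]
  rfl

theorem dist_xx (k : Fin 416) : dist xx (yy k) = ‖tt • q uu - q k‖ := by
  unfold xx yy
  rw [phi.dist_map, dist_eq_norm]
  rfl

/-- The diameter. -/
noncomputable def dd : ℝ := Real.sqrt (1 / 3)

theorem dd_pos : 0 < dd := Real.sqrt_pos.mpr (by norm_num)

theorem dd_sq : dd ^ 2 = 1 / 3 := Real.sq_sqrt (by norm_num)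

theorem le_dd {z : ℝ} (hz : 0 ≤ z) (h : z ^ 2 ≤ 1 / 3) : z ≤ dd := by
  have h0 := dd_pos
  have h1 := dd_sq
  nlinarith

theorem sq_eq_of_eq_dd {z : ℝ} (hz : 0 ≤ z) (h : z ^ 2 = 1 / 3) : z = dd := by
  have h0 := dd_pos
  have h1 := dd_sq
  nlinarith

/-- The bounded configuration. -/
noncomputable def configY : Set (EuclideanSpace ℝ (Fin 63)) :=
  yy '' (sliceSet : Set (Fin 416)) ∪ {xx}

theorem configY_finite : configY.Finite :=
  ((Finset.finite_toSet sliceSet).image yy).union (Set.finite_singleton xx)

theorem dist_yy_le (i k : Fin 416) (hi : sl i = true) (hk : sl k = true) :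
    dist (yy i) (yy k) ≤ dd := by
  by_cases hne : i = k
  · subst hne; rw [dist_self]; exact dd_pos.le
  · apply le_dd dist_nonneg
    rw [dist_yy, dist_sq_slice i k hi hk hne]
    split_ifs <;> norm_num

theorem dist_xx_le (k : Fin 416) (hk : sl k = true) : dist xx (yy k) ≤ dd := by
  apply le_dd dist_nonneg
  rw [dist_xx, dist_sq_extra k hk]
  have := tt_pos
  split_ifs <;> linarith

theorem mem_sliceSet {i : Fin 416} : i ∈ sliceSet ↔ sl i = true := by
  simp [sliceSet]

theorem diam_le : Metric.diam configY ≤ dd := by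
  apply Metric.diam_le_of_forall_dist_le dd_pos.le
  rintro z (⟨i, hi, rfl⟩ | rfl) w (⟨k, hk, rfl⟩ | rfl)
  · exact dist_yy_le i k (mem_sliceSet.mp hi) (mem_sliceSet.mp hk)
  · rw [dist_comm]; exact dist_xx_le i (mem_sliceSet.mp hi)
  · exact dist_xx_le k (mem_sliceSet.mp hk)
  · rw [dist_self]; exact dd_pos.le

theorem exists_non_adj : ∃ i k : Fin 416, sl i = true ∧ sl k = true ∧ i ≠ k ∧ adj i k = false := by
  by_contra hc
  push Not at hc
  have hcl : IsClq sliceSet := by
    intro x hx y hy hxy
    have := hc x y (mem_sliceSet.mp hx) (mem_sliceSet.mp hy) hxy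
    simpa using this
  have := clique_bound _ hcl
  rw [card_slice] at this
  omega

theorem dd_le_diam : dd ≤ Metric.diam configY := by
  obtain ⟨i, k, hi, hk, hne, hadj⟩ := exists_non_adj
  have hb : Bornology.IsBounded configY := configY_finite.isBounded
  have h1 : yy i ∈ configY := Or.inl ⟨i, mem_sliceSet.mpr hi, rfl⟩
  have h2 : yy k ∈ configY := Or.inl ⟨k, mem_sliceSet.mpr hk, rfl⟩
  have h3 := Metric.dist_le_diam_of_mem hb h1 h2
  have h4 : dist (yy i) (yy k) = dd := by
    apply sq_eq_of_eq_dd dist_nonneg
    rw [dist_yy, dist_sq_slice i k hi hk hne, hadj]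
    simp
  rwa [h4] at h3

theorem diam_eq : Metric.diam configY = dd := le_antisymm diam_le dd_le_diam

/-- The covering argument. -/
theorem no_cover (P : Fin 64 → Set (EuclideanSpace ℝ (Fin 63))) (hP : (⋃ i, P i) = configY)
    (hlt : ∀ i, Metric.diam (P i) < Metric.diam configY) : False := by
  classical
  rw [diam_eq] at hlt
  have hsub : ∀ i, P i ⊆ configY := fun i => hP ▸ Set.subset_iUnion P i
  have hbd : ∀ i, Bornology.IsBounded (P i) :=
    fun i => configY_finite.isBounded.subset (hsub i)
  have hclose : ∀ i, ∀ z ∈ P i, ∀ w ∈ P i, dist z w < dd :=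
    fun i z hz w hw => lt_of_le_of_lt (Metric.dist_le_diam_of_mem (hbd i) hz hw) (hlt i)
  have hcov : ∀ z ∈ configY, ∃ i, z ∈ P i := by
    intro z hz
    rw [← hP] at hz
    exact Set.mem_iUnion.mp hz
  have hy : ∀ v : Fin 416, ∃ i, sl v = true → yy v ∈ P i := by
    intro v
    by_cases hv : sl v = true
    · obtain ⟨i, hi⟩ := hcov (yy v) (Or.inl ⟨v, mem_sliceSet.mpr hv, rfl⟩)
      exact ⟨i, fun _ => hi⟩
    · exact ⟨0, fun h => absurd h hv⟩
  choose c hc using hy
  obtain ⟨i0, hi0⟩ := hcov xx (Or.inr rfl)
  let C : Fin 64 → Finset (Fin 416) := fun i => sliceSet.filter fun v => c v = i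
  have hCmem : ∀ i v, v ∈ C i → sl v = true ∧ c v = i := by
    intro i v hv
    have := Finset.mem_filter.mp hv
    exact ⟨mem_sliceSet.mp this.1, this.2⟩
  have hadjC : ∀ i, ∀ v ∈ C i, ∀ w ∈ C i, v ≠ w → adj v w = true := by
    intro i v hv w hw hne
    obtain ⟨hv1, hv2⟩ := hCmem i v hv
    obtain ⟨hw1, hw2⟩ := hCmem i w hw
    have hd := hclose i _ (hv2 ▸ hc v hv1) _ (hw2 ▸ hc w hw1)
    by_contra hna
    have : dist (yy v) (yy w) = dd := by
      apply sq_eq_of_eq_dd dist_nonneg
      rw [dist_yy, dist_sq_slice v w hv1 hw1 hne, if_neg hna]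
    linarith
  have hcard : ∀ i, (C i).card ≤ 5 := fun i => clique_bound _ (hadjC i)
  have hu : ∀ v ∈ C i0, adj v uu = true := by
    intro v hv
    obtain ⟨hv1, hv2⟩ := hCmem i0 v hv
    have hd := hclose i0 _ hi0 _ (hv2 ▸ hc v hv1)
    by_contra hna
    have : dist xx (yy v) = dd := by
      apply sq_eq_of_eq_dd dist_nonneg
      rw [dist_xx, dist_sq_extra v hv1, if_neg hna]
    linarith
  have hunot : uu ∉ C i0 := by
    intro h
    have := (hCmem i0 uu h).1
    rw [uu_not_slice] at this
    exact absurd this (by simp)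
  have hcl : IsClq (insert uu (C i0)) := by
    intro x hx y hy hxy
    rcases Finset.mem_insert.mp hx with rfl | hx'
    · rcases Finset.mem_insert.mp hy with rfl | hy'
      · exact absurd rfl hxy
      · rw [adj_symm]; exact hu y hy'
    · rcases Finset.mem_insert.mp hy with rfl | hy'
      · exact hu x hx'
      · exact hadjC i0 x hx' y hy' hxy
  have hc0 := clique_bound _ hcl
  rw [Finset.card_insert_of_notMem hunot] at hc0
  have hsum : sliceSet.card = ∑ i, (C i).card :=
    Finset.card_eq_sum_card_fiberwise (fun v _ => Finset.mem_coe.mpr (Finset.mem_univ (c v)))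
  rw [card_slice] at hsum
  have hbound : ∑ i, ((C i).card + (if i = i0 then 1 else 0)) ≤ ∑ _i : Fin 64, 5 := by
    apply Finset.sum_le_sum
    intro i _
    by_cases hi : i = i0
    · subst hi; simp; omega
    · simp [hi, hcard i]
  rw [Finset.sum_add_distrib, Finset.sum_ite_eq' Finset.univ i0] at hbound
  simp at hbound
  omega

end Vale.Agent.P052
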