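import Vale.Agent.P052.Check

/-! The graph on `Fin 416`: symmetry, the strongly regular identity and the clique bound, obtained
from the kernel checks and the two automorphisms. -/

namespace Vale.Agent.P052

/-- Adjacency on `Fin 416`. -/
def adj (i j : Fin 416) : Bool := (row i).testBit j

/-- Adjacency as a real number. -/
noncomputable def a (i j : Fin 416) : ℝ := if adj i j then 1 else 0

theorem adj_symm (i j : Fin 416) : adj i j = adj j i := by
  have h := allBelow_spec _ _ (allBelow_spec _ _ sym_check i i.2) j j.2
  have := boolEq_spec h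
  simpa [adj, bitB_eq] using this

theorem adj_irrefl (i : Fin 416) : adj i i = false := by
  have h := allBelow_spec _ _ irrefl_check i i.2
  simpa [adj, bitB_eq] using h

theorem a_symm (i j : Fin 416) : a i j = a j i := by
  simp only [a, adj_symm i j]

theorem a_self (i : Fin 416) : a i i = 0 := by
  simp [a, adj_irrefl]

theorem a_sq (i j : Fin 416) : a i j * a i j = a i j := by
  unfold a; split_ifs <;> norm_num

theorem gen_lt (c : Fin 2) (i : Fin 416) : gen c i < 416 := by
  have h := allBelow_spec _ _ (allBelow_spec _ _ gen_range_check c c.2) i i.2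
  exact Nat.le_of_ble_eq_true h

/-- The two permutations as maps of `Fin 416`. -/
def genF (c : Fin 2) (i : Fin 416) : Fin 416 := ⟨gen c i, gen_lt c i⟩

theorem genF_inj (c : Fin 2) : Function.Injective (genF c) := by
  have key : ∀ i j : Fin 416, j.val < i.val → genF c i ≠ genF c j := by
    intro i j hji he
    have h := allBelow_spec _ _ (allBelow_spec _ _
      (allBelow_spec _ _ gen_inj_check c c.2) i i.2) j hji
    have he' : gen c i = gen c j := congrArg Fin.val he
    rw [he'] at h
    have : Nat.beq (gen c j) (gen c j) = true := Nat.beq_refl _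
    rw [this] at h
    exact absurd h (by simp)
  intro i j he
  by_contra hne
  have hv : i.val ≠ j.val := fun h => hne (Fin.ext h)
  rcases lt_or_gt_of_ne hv with h | h
  · exact key j i h he.symm
  · exact key i j h he

theorem genF_bij (c : Fin 2) : Function.Bijective (genF c) :=
  ⟨genF_inj c, Finite.injective_iff_surjective.mp (genF_inj c)⟩

theorem adj_genF (c : Fin 2) (i j : Fin 416) : adj (genF c i) (genF c j) = adj i j := by
  have h : boolEq (bitB (row (gen c i)) (gen c j)) (bitB (row i) j) = true := by
    fin_cases c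
    · exact allBelow_spec _ _ (allBelow_spec _ _ aut_check_zero i i.2) j j.2
    · exact allBelow_spec _ _ (allBelow_spec _ _ aut_check_one i i.2) j j.2
  have := boolEq_spec h
  simpa [adj, genF, bitB_eq] using this

theorem a_genF (c : Fin 2) (i j : Fin 416) : a (genF c i) (genF c j) = a i j := by
  simp only [a, adj_genF]

/-- Every vertex is reached from vertex `0` along the two permutations. -/
theorem reach_induction (P : Fin 416 → Prop) (h0 : P 0)
    (hstep : ∀ (c : Fin 2) (i : Fin 416), P i → P (genF c i)) : ∀ v, P v := by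
  intro v
  obtain ⟨n, hn⟩ := v
  induction n using Nat.strong_induction_on with
  | _ n ih =>
    by_cases hn0 : n = 0
    · subst hn0; exact h0
    · have h := allBelow_spec _ _ parent_check n hn
      have hb : Nat.beq n 0 = false := beq_zero_of_ne hn0
      rw [hb, cond_false, Bool.and_eq_true] at h
      obtain ⟨h1, h2⟩ := h
      have hp : (parentCode n) / 2 < n := Nat.le_of_ble_eq_true h1
      have hc : (parentCode n) % 2 < 2 := Nat.mod_lt _ (by norm_num)
      have hg : gen ((parentCode n) % 2) ((parentCode n) / 2) = n := Nat.eq_of_beq_eq_true h2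
      have := hstep ⟨_, hc⟩ ⟨_, lt_trans hp hn⟩ (ih _ hp (lt_trans hp hn))
      have e : genF ⟨_, hc⟩ ⟨_, lt_trans hp hn⟩ = ⟨n, hn⟩ := Fin.ext hg
      rwa [e] at this

/-- The sum of an indicator of the bits of `x` over `Fin 416`. -/
theorem sum_bits (x : Nat) :
    (∑ j : Fin 416, (if x.testBit j = true then (1 : ℝ) else 0)) = bitCount 416 x := by
  rw [Fin.sum_univ_eq_sum_range (fun j => if x.testBit j = true then (1 : ℝ) else 0) 416,
    Finset.sum_boole]
  rfl

theorem row_lt (i : Nat) : row i < 2 ^ 416 := Nat.mod_lt _ (Nat.two_pow_pos 416)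

theorem land_lt {x y : Nat} (hx : x < 2 ^ 416) : (x &&& y) < 2 ^ 416 :=
  (Nat.land_comm x y) ▸ Nat.and_lt_two_pow y hx

theorem a_mul_a (i k j : Fin 416) :
    a i j * a k j = if (row i &&& row k).testBit j = true then (1 : ℝ) else 0 := by
  simp only [a, adj, Nat.testBit_and, Bool.and_eq_true]
  by_cases h1 : (row i).testBit j = true <;> by_cases h2 : (row k).testBit j = true <;>
    simp [h1, h2]

/-- The common-neighbour count that the strongly regular identity asserts. -/
noncomputable def srgVal (i k : Fin 416) : ℝ := if i = k then 100 else if adj i k then 36 else 20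

theorem srg_zero (k : Fin 416) : ∑ j, a 0 j * a k j = srgVal 0 k := by
  have h := allBelow_spec _ _ srg0_check k k.2
  have h2 := popIs_sound 416 _ _ _ h (land_lt (row_lt 0))
  have e : Nat.land (row 0) (row k) = row 0 &&& row k := rfl
  rw [e] at h2
  simp only [a_mul_a]
  have := sum_bits (row ((0 : Fin 416) : Nat) &&& row k)
  have e0 : ((0 : Fin 416) : Nat) = 0 := rfl
  rw [this, e0, h2]
  unfold srgVal
  by_cases hk : (0 : Fin 416) = k
  · subst hk
    rfl
  · have hk' : (k : Nat) ≠ 0 := fun h => hk (Fin.ext h.symm)
    have hb : Nat.beq (k : Nat) 0 = false := beq_zero_of_ne hk'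
    rw [hb, cond_false, if_neg hk, bitB_eq]
    simp only [adj, e0]
    cases (row 0).testBit k <;> simp

theorem srg_all : ∀ i k : Fin 416, ∑ j, a i j * a k j = srgVal i k := by
  apply reach_induction
  · exact srg_zero
  · intro c i hi k
    obtain ⟨k', rfl⟩ := (genF_bij c).2 k
    have e : ∑ j, a (genF c i) j * a (genF c k') j =
        ∑ j, a (genF c i) (genF c j) * a (genF c k') (genF c j) :=
      (Function.Bijective.sum_comp (genF_bij c)
        (fun j => a (genF c i) j * a (genF c k') j)).symm
    rw [e]
    simp only [a_genF]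
    rw [hi k']
    unfold srgVal
    simp only [(genF_inj c).eq_iff, adj_genF]

/-- A clique. -/
def IsClq (Q : Finset (Fin 416)) : Prop := ∀ x ∈ Q, ∀ y ∈ Q, x ≠ y → adj x y = true

theorem clique_zero (Q : Finset (Fin 416)) (h0 : (0 : Fin 416) ∈ Q) (hQ : IsClq Q) :
    Q.card ≤ 5 := by
  have hs := chk_sound row 417 4 (row 0) clique0_check
    ((Q.erase 0).map Fin.valEmbedding)
    (by
      intro q hq
      obtain ⟨x, hx, rfl⟩ := Finset.mem_map.mp hq
      have hx' := Finset.mem_erase.mp hx
      exact hQ 0 h0 x hx'.2 (Ne.symm hx'.1))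
    (by
      intro p hp q hq hpq
      obtain ⟨x, hx, rfl⟩ := Finset.mem_map.mp hp
      obtain ⟨y, hy, rfl⟩ := Finset.mem_map.mp hq
      have hx' := Finset.mem_erase.mp hx
      have hy' := Finset.mem_erase.mp hy
      exact hQ x hx'.2 y hy'.2 (fun e => hpq (by rw [e])))
  rw [Finset.card_map, Finset.card_erase_of_mem h0] at hs
  omega

theorem clique_all : ∀ (v : Fin 416) (Q : Finset (Fin 416)), v ∈ Q → IsClq Q → Q.card ≤ 5 := by
  apply reach_induction
  · exact clique_zero
  · intro c i hi Q hQ hc
    let e : Fin 416 ≃ Fin 416 := Equiv.ofBijective _ (genF_bij c)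
    have heq : ∀ x, e x = genF c x := fun _ => rfl
    have := hi (Q.map e.symm.toEmbedding)
      (by
        refine Finset.mem_map.mpr ⟨genF c i, hQ, ?_⟩
        show e.symm (genF c i) = i
        rw [← heq, Equiv.symm_apply_apply])
      (by
        intro x hx y hy hxy
        obtain ⟨x', hx', rfl⟩ := Finset.mem_map.mp hx
        obtain ⟨y', hy', rfl⟩ := Finset.mem_map.mp hy
        have hne : x' ≠ y' := fun h => hxy (by rw [h])
        have := hc x' hx' y' hy' hne
        rw [← adj_genF c]
        have ex : genF c (e.symm x') = x' := by rw [← heq, Equiv.apply_symm_apply]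
        have ey : genF c (e.symm y') = y' := by rw [← heq, Equiv.apply_symm_apply]
        simpa [ex, ey] using this)
    simpa using this

/-- Every clique of the graph has at most five vertices. -/
theorem clique_bound (Q : Finset (Fin 416)) (hQ : IsClq Q) : Q.card ≤ 5 := by
  by_cases h : Q.Nonempty
  · obtain ⟨v, hv⟩ := h
    exact clique_all v Q hv hQ
  · rw [Finset.not_nonempty_iff_eq_empty] at h
    simp [h]

end Vale.Agent.P052
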